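import Mathlib

namespace Vale.P033D

open Finset

variable {n : ℕ} [NeZero n]

theorem sq_one {x : ℤ} (hx : x = 1 ∨ x = -1) : x * x = 1 := by
  rcases hx with rfl | rfl <;> norm_num

theorem even_n (h : ZMod n → ℤ) (hs : ∀ j, h j = 1 ∨ h j = -1) (t : ZMod n)
    (ht : ∑ j, h j * h (j + t) = 0) : Even n := by
  have h2 : ∀ j, (h j : ZMod 2) = 1 := fun j => by
    rcases hs j with e | e <;> rw [e] <;> decide
  have h1 : ((∑ j, h j * h (j + t) : ℤ) : ZMod 2) = (n : ZMod 2) := by
    push_cast
    simp [h2, ZMod.card]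
  rw [ht] at h1
  rw [← ZMod.natCast_eq_zero_iff_even]
  simpa using h1.symm

theorem sum_shift (g : ZMod n → ℤ) (t : ZMod n) : ∑ j, g (j + t) = ∑ j, g j :=
  Equiv.sum_comp (Equiv.addRight t) g

theorem main (h : ZMod n → ℤ) (hs : ∀ j, h j = 1 ∨ h j = -1)
    (hP : ∀ t : ZMod n, t ≠ 0 → ∑ j, h j * h (j + t) = 0) (s H : ZMod n)
    (hHd : H = ((n / 2 : ℕ) : ZMod n)) (h0 : s ≠ 0) (hH : s ≠ H) :
    (8 : ℤ) ∣ n - (univ.filter fun j : ZMod n =>
      h (j + s) * h (j + s + H) ≠ h j * h (j + H)).card := by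
  have hev : Even n := even_n h hs s (hP s h0)
  have hn0 : n ≠ 0 := NeZero.ne n
  have hHH : H + H = 0 := by
    rw [hHd, ← Nat.cast_add, show n / 2 + n / 2 = n by obtain ⟨k, hk⟩ := hev; omega]
    exact ZMod.natCast_self n
  have hHne : H ≠ 0 := by
    rw [hHd]
    intro hc
    rw [ZMod.natCast_eq_zero_iff] at hc
    obtain ⟨k, hk⟩ := hev
    have := Nat.le_of_dvd (by omega) hc
    omega
  have hsH1 : s - H ≠ 0 := sub_ne_zero.2 hH
  have hsH2 : s + H ≠ 0 := by
    intro hc
    apply hH
    have h1 : s = -H := eq_neg_of_add_eq_zero_left hc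
    rw [h1]
    exact neg_eq_of_add_eq_zero_left hHH
  set χ : ZMod n → ℤ := fun j => h j * h (j + H) with hχ
  have hχv : ∀ j, χ j = 1 ∨ χ j = -1 := fun j => by
    rcases hs j with e | e <;> rcases hs (j + H) with e' | e' <;> simp [hχ, e, e']
  have hHj : ∀ j, h (j + H + H) = h j := fun j => by rw [add_assoc, hHH, add_zero]
  -- the sums
  have S1 : ∑ j, χ j = 0 := hP H hHne
  have S2 : ∑ j, χ (j + s) = 0 := by rw [sum_shift χ s]; exact S1
  have S3 : ∑ j, h j * h (j + s) = 0 := hP s h0
  have S4 : ∑ j, χ j * (h j * h (j + s)) = 0 := by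
    rw [← hP (s - H) hsH1, ← sum_shift (fun i => h i * h (i + (s - H))) H]
    refine sum_congr rfl fun j _ => ?_
    rw [show j + H + (s - H) = j + s by ring]
    have := sq_one (hs j)
    simp only [hχ]
    linear_combination (h (j + H) * h (j + s)) * this
  have S5 : ∑ j, χ (j + s) * (h j * h (j + s)) = 0 := by
    rw [← hP (s + H) hsH2]
    refine sum_congr rfl fun j _ => ?_
    rw [← add_assoc]
    have := sq_one (hs (j + s))
    simp only [hχ]
    linear_combination (h j * h (j + s + H)) * this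
  have S6 : ∑ j, χ j * χ (j + s) * (h j * h (j + s)) = 0 := by
    rw [← hP s h0, ← sum_shift (fun i => h i * h (i + s)) H]
    refine sum_congr rfl fun j _ => ?_
    rw [show j + H + s = j + s + H by ring]
    have e1 := sq_one (hs (j + s))
    have e2 := sq_one (hs j)
    simp only [hχ]
    linear_combination (h (j + H) * h (j + s + H) * h (j + s) * h (j + s)) * e2 +
      (h (j + H) * h (j + s + H)) * e1
  set D := univ.filter fun j : ZMod n => h (j + s) * h (j + s + H) ≠ h j * h (j + H) with hD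
  have hcorr : ∑ j, χ j * χ (j + s) = n - 2 * (D.card : ℤ) := by
    have h1 : ∀ j, χ j * χ (j + s) = 1 - 2 * (if j ∈ D then 1 else 0) := fun j => by
      have h2 : j ∈ D ↔ χ (j + s) ≠ χ j := by simp [hD, hχ]
      by_cases hj : j ∈ D
      · rw [if_pos hj]
        have := h2.1 hj
        rcases hχv j with e | e <;> rcases hχv (j + s) with e' | e'
        · exact absurd (e'.trans e.symm) this
        · rw [e, e']; norm_num
        · rw [e, e']; norm_num
        · exact absurd (e'.trans e.symm) this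
      · rw [if_neg hj]
        have : χ (j + s) = χ j := by
          by_contra hc
          exact hj (h2.2 hc)
        rw [this]
        rcases hχv j with e | e <;> rw [e] <;> norm_num
    rw [sum_congr rfl fun j _ => h1 j, sum_sub_distrib, ← mul_sum]
    simp [ZMod.card]
  set S := univ.filter fun j : ZMod n => χ j = -1 ∧ χ (j + s) = -1 ∧ h j * h (j + s) = 1 with hS
  have hcount : 8 * (S.card : ℤ) = 2 * n - 2 * D.card := by
    have h1 : ∀ j, (1 - χ j) * (1 - χ (j + s)) * (1 + h j * h (j + s)) =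
        8 * (if j ∈ S then 1 else 0) := fun j => by
      have h2 : j ∈ S ↔ χ j = -1 ∧ χ (j + s) = -1 ∧ h j * h (j + s) = 1 := by simp [hS]
      have hε : h j * h (j + s) = 1 ∨ h j * h (j + s) = -1 := by
        rcases hs j with e | e <;> rcases hs (j + s) with e' | e' <;> simp [e, e']
      by_cases hj : j ∈ S
      · rw [if_pos hj, (h2.1 hj).1, (h2.1 hj).2.1, (h2.1 hj).2.2]; norm_num
      · rw [if_neg hj]
        rcases hχv j with e | e
        · rw [e]; ring
        rcases hχv (j + s) with e' | e'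
        · rw [e']; ring
        rcases hε with e'' | e''
        · exact absurd (h2.2 ⟨e, e', e''⟩) hj
        · rw [e'']; ring
    have h3 : ∑ j, (1 - χ j) * (1 - χ (j + s)) * (1 + h j * h (j + s)) = 8 * (S.card : ℤ) := by
      rw [sum_congr rfl fun j _ => h1 j, ← mul_sum]
      simp
    rw [← h3]
    have h4 : ∀ j, (1 - χ j) * (1 - χ (j + s)) * (1 + h j * h (j + s)) =
        1 - χ j - χ (j + s) + χ j * χ (j + s) + h j * h (j + s) - χ j * (h j * h (j + s)) -
          χ (j + s) * (h j * h (j + s)) + χ j * χ (j + s) * (h j * h (j + s)) := fun j => by ring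
    rw [sum_congr rfl fun j _ => h4 j, sum_add_distrib, sum_sub_distrib, sum_sub_distrib,
      sum_add_distrib, sum_add_distrib, sum_sub_distrib, sum_sub_distrib, S1, S2, S3, S4, S5, S6,
      hcorr]
    simp [ZMod.card]
    ring
  have heven : Even S.card := by
    have h1 : ∑ j ∈ S, (1 : ZMod 2) = 0 := by
      refine sum_involution (fun j _ => j + H) ?_ ?_ ?_ ?_
      · intro j _; decide
      · intro j _ _ hc
        exact hHne (by simpa using hc)
      · intro j hj
        rw [hS, mem_filter] at hj ⊢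
        obtain ⟨-, a, b, c⟩ := hj
        refine ⟨mem_univ _, ?_, ?_, ?_⟩
        · simp only [hχ] at a ⊢
          rw [hHj, mul_comm]; exact a
        · simp only [hχ] at b ⊢
          rw [show j + H + s = j + s + H by ring, hHj, mul_comm]; exact b
        · simp only [hχ] at a b
          rw [show j + H + s = j + s + H by ring]
          have e1 := sq_one (hs j)
          have e2 := sq_one (hs (j + s))
          calc h (j + H) * h (j + s + H)
              = (h j * h j) * (h (j + s) * h (j + s)) * (h (j + H) * h (j + s + H)) := by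
                rw [e1, e2]; ring
            _ = (h j * h (j + H)) * (h (j + s) * h (j + s + H)) * (h j * h (j + s)) := by ring
            _ = 1 := by rw [a, b, c]; norm_num
      · intro j _
        rw [add_assoc, hHH, add_zero]
    rw [sum_const, nsmul_eq_mul, mul_one] at h1
    rwa [← ZMod.natCast_eq_zero_iff_even]
  obtain ⟨k, hk⟩ := heven
  refine ⟨k, ?_⟩
  rw [hk] at hcount
  push_cast at hcount
  linarith

/-- `n` is a square. -/
theorem square (h : ZMod n → ℤ) (hs : ∀ j, h j = 1 ∨ h j = -1)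
    (hP : ∀ t : ZMod n, t ≠ 0 → ∑ j, h j * h (j + t) = 0) : (∑ j, h j) ^ 2 = (n : ℤ) := by
  have h1 : ∑ t : ZMod n, ∑ j, h j * h (j + t) = (n : ℤ) := by
    rw [← Finset.add_sum_erase _ _ (mem_univ (0 : ZMod n)), Finset.sum_eq_zero
      (s := univ.erase (0 : ZMod n)) fun t ht => hP t (ne_of_mem_erase ht)]
    simp only [add_zero]
    rw [sum_congr rfl fun j _ => sq_one (hs j)]
    simp [ZMod.card]
  rw [← h1, sum_comm, sq, sum_mul]
  refine sum_congr rfl fun j _ => ?_
  rw [← mul_sum]
  congr 1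
  exact (Equiv.sum_comp (Equiv.addLeft j) h).symm

theorem period (h : ZMod n → ℤ) (hs : ∀ j, h j = 1 ∨ h j = -1)
    (hP : ∀ t : ZMod n, t ≠ 0 → ∑ j, h j * h (j + t) = 0) (h16 : ¬ 16 ∣ n) (s H : ZMod n)
    (hHd : H = ((n / 2 : ℕ) : ZMod n))
    (hper : ∀ j, h (j + s) * h (j + s + H) = h j * h (j + H)) : s = 0 ∨ s = H := by
  by_contra hc
  push Not at hc
  have h1 := main h hs hP s H hHd hc.1 hc.2
  rw [Finset.filter_false_of_mem (fun j _ => by simpa using hper j)] at h1
  simp only [card_empty, Nat.cast_zero, sub_zero] at h1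
  have h2 := square h hs hP
  set m := ∑ j, h j with hm
  apply h16
  have h3 : (4 : ℤ) ∣ m := by
    have h5 : (8 : ℤ) ∣ m ^ 2 := by rw [h2]; exact h1
    obtain ⟨q, hq⟩ : Even m := by
      rw [← Int.even_pow' (n := 2) two_ne_zero]
      obtain ⟨c, hc⟩ := h5
      exact ⟨4 * c, by rw [hc]; ring⟩
    obtain ⟨c, hc⟩ := h5
    have h6 : q ^ 2 = 2 * c := by
      have : (q + q) ^ 2 = 8 * c := by rw [← hq]; exact hc
      nlinarith
    obtain ⟨r, hr⟩ : Even q := by
      rw [← Int.even_pow' (n := 2) two_ne_zero]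
      exact ⟨c, by rw [h6]; ring⟩
    exact ⟨r, by rw [hq, hr]; ring⟩
  obtain ⟨r, hr⟩ := h3
  have h7 : (16 : ℤ) ∣ (n : ℤ) := ⟨r ^ 2, by rw [← h2, hr]; ring⟩
  exact_mod_cast h7

theorem product (h b c : ZMod n → ℤ) (hs : ∀ j, h j = 1 ∨ h j = -1)
    (hP : ∀ t : ZMod n, t ≠ 0 → ∑ j, h j * h (j + t) = 0) (h16 : ¬ 16 ∣ n) (q H : ZMod n)
    (hHd : H = ((n / 2 : ℕ) : ZMod n)) (hbs : ∀ j, b j = 1 ∨ b j = -1)
    (hcs : ∀ j, c j = 1 ∨ c j = -1) (hbc : ∀ j, h j = b j * c j)
    (hb : ∀ j, b (j + H) = b j) (hc : ∀ j, c (j + q) = c j) : q = 0 := by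
  have hχ : ∀ j, h j * h (j + H) = c j * c (j + H) := fun j => by
    rw [hbc, hbc (j + H), hb]
    linear_combination (c j * c (j + H)) * sq_one (hbs j)
  have h1 := period h hs hP h16 q H hHd fun j => by
    rw [hχ, hχ, show j + q + H = j + H + q by ring, hc, hc]
  rcases h1 with h1 | h1
  · exact h1
  · by_contra hq
    have hH0 : H ≠ 0 := by rw [← h1]; exact hq
    have h2 := hP H hH0
    have h3 : ∑ j, h j * h (j + H) = ∑ _j : ZMod n, (1 : ℤ) := by
      refine sum_congr rfl fun j _ => ?_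
      rw [hχ, ← h1, hc]
      exact sq_one (hcs j)
    rw [h3] at h2
    simp only [sum_const, card_univ, ZMod.card, nsmul_eq_mul, mul_one] at h2
    exact NeZero.ne n (by exact_mod_cast h2)

end Vale.P033D
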